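import Vale.Agent.P050.H753.Comb

namespace Vale.Agent.Results.P050.TargetsAndMinors

open Vale.Agent.P050 Vale.Agent.P050.H753

universe u v

/-- Local and averaged forms, targets with monotone reflections, kernels of rank at most two and
with nonnegative ordered minors; and all tensor products of targets. -/
theorem result :
    LocalAndTargets ∧ TotallyPositive ∧
    (∀ (U₁ : Type u) (U₂ : Type v) [Finite U₁] [Finite U₂] (G₁ : SimpleGraph U₁)
      (G₂ : SimpleGraph U₂),
      (SidorenkoAgainst G₁ → SidorenkoAgainst G₂ → SidorenkoAgainst (tensorGraph G₁ G₂)) ∧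
      (EdgewiseSidorenkoAgainst G₁ → EdgewiseSidorenkoAgainst G₂ →
        EdgewiseSidorenkoAgainst (tensorGraph G₁ G₂))) :=
  ⟨localAndTargets, totallyPositive, fun _ _ _ _ G₁ G₂ =>
    ⟨sidorenko_tensor G₁ G₂, edgewise_tensor G₁ G₂⟩⟩

end Vale.Agent.Results.P050.TargetsAndMinors
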