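import Vale.Agent.P050.H392.Kernel

/-!
P050: every bipartite graph satisfies Sidorenko's inequality against every nonnegative kernel of
rank at most two, and more generally against every kernel whose rows and columns can be ordered
such that all two-by-two minors are nonnegative.
-/

open MeasureTheory

namespace Vale.Agent.Results.P050.TotallyPositive

open Vale.Agent.P050.H392

/-- The homomorphism density `t(H, W) = ∫ ∏_{uv ∈ E(H)} W(x_u, x_v) dx` of the graph `H` in the
symmetric kernel `W` on the measure space `(Ω, μ)`; the integral is over `Ω ^ V(H)`. -/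
noncomputable def kernelDensity {V Ω : Type} [Fintype V] [DecidableEq V] [MeasurableSpace Ω]
    (μ : Measure Ω) (H : SimpleGraph V) [DecidableRel H.Adj]
    (W : Ω → Ω → ℝ) (hW : ∀ s t, W s t = W t s) : ℝ :=
  ∫ x : V → Ω, ∏ e ∈ H.edgeFinset,
    Sym2.lift ⟨fun u v => W (x u) (x v), fun u v => hW (x u) (x v)⟩ e
    ∂(Measure.pi fun _ : V => μ)

/-- `t(H,G) = hom(H,G) / |V(G)| ^ |V(H)|` -/
noncomputable def homDensity {V U : Type} (H : SimpleGraph V) (G : SimpleGraph U) : ℝ :=
  (Nat.card (H →g G) : ℝ) / (Nat.card U : ℝ) ^ Nat.card V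

/-- `p(G) = 2 |E(G)| / |V(G)| ^ 2` -/
noncomputable def edgeDensity {U : Type} (G : SimpleGraph U) : ℝ :=
  2 * (Nat.card G.edgeSet : ℝ) / (Nat.card U : ℝ) ^ 2

theorem density_eq {V Ω : Type} [Fintype V] [DecidableEq V] [MeasurableSpace Ω]
    (μ : Measure Ω) (H : SimpleGraph V) [DecidableRel H.Adj]
    (W : Ω → Ω → ℝ) (hW : ∀ s t, W s t = W t s) {o : V → ℕ}
    (ho : ∀ u v, H.Adj u v → o u ≠ o v) :
    kernelDensity μ H W hW = dens μ (orient H o) W := by
  unfold kernelDensity dens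
  congr 1
  funext x
  rw [prod_orient H ho]
  rfl

theorem hom_sum {V U : Type} [Fintype V] [DecidableEq V] [Fintype U] [DecidableEq U]
    (H : SimpleGraph V) [DecidableRel H.Adj] (G : SimpleGraph U) [DecidableRel G.Adj]
    {o : V → ℕ} (ho : ∀ u v, H.Adj u v → o u ≠ o v) {N : ℕ} (z : Fin N ≃ U) :
    (∑ φ : V → Fin N, ∏ e ∈ orient H o,
      (if G.Adj (z (φ e.1)) (z (φ e.2)) then (1 : ℝ) else 0)) = (Nat.card (H →g G) : ℝ) := by
  classical
  have h1 : (∑ φ : V → Fin N, ∏ e ∈ orient H o,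
      (if G.Adj (z (φ e.1)) (z (φ e.2)) then (1 : ℝ) else 0)) =
      ∑ ψ : V → U, ∏ e ∈ orient H o, (if G.Adj (ψ e.1) (ψ e.2) then (1 : ℝ) else 0) :=
    Equiv.sum_comp (Equiv.piCongrRight fun _ : V => z)
      (fun ψ : V → U => ∏ e ∈ orient H o, (if G.Adj (ψ e.1) (ψ e.2) then (1 : ℝ) else 0))
  rw [h1]
  have h2 : ∀ ψ : V → U, (∏ e ∈ orient H o, (if G.Adj (ψ e.1) (ψ e.2) then (1 : ℝ) else 0)) =
      if ∀ u v, H.Adj u v → G.Adj (ψ u) (ψ v) then 1 else 0 := by
    intro ψ
    rw [Finset.prod_ite_zero]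
    simp only [Finset.prod_const_one]
    congr 1
    simp only [orient, Finset.mem_filter, Finset.mem_univ, true_and, Prod.forall, eq_iff_iff]
    constructor
    · intro h u v huv
      rcases lt_or_gt_of_ne (ho u v huv) with h3 | h3
      · exact h u v ⟨huv, h3⟩
      · exact (h v u ⟨huv.symm, h3⟩).symm
    · intro h u v huv
      exact h u v huv.1
  simp only [h2]
  rw [Finset.sum_boole]
  have h3 : Nat.card (H →g G) =
      (Finset.univ.filter fun ψ : V → U => ∀ u v, H.Adj u v → G.Adj (ψ u) (ψ v)).card := by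
    rw [← Fintype.card_subtype, Nat.card_eq_fintype_card.symm]
    refine Nat.card_congr ⟨fun f => ⟨f, fun u v h => f.map_rel h⟩,
      fun ψ => ⟨ψ.1, fun {u v} h => ψ.2 u v h⟩, fun f => ?_, fun ψ => ?_⟩
    · ext; rfl
    · rfl
  rw [h3]

theorem result :
    (∀ (V Ω : Type) [Fintype V] [DecidableEq V] [MeasurableSpace Ω]
      (H : SimpleGraph V) [DecidableRel H.Adj] (μ : Measure Ω) [IsProbabilityMeasure μ]
      (W : Ω → Ω → ℝ) (hW : ∀ s t, W s t = W t s) (C : ℝ),
      H.IsBipartite → Measurable (Function.uncurry W) → (∀ s t, 0 ≤ W s t) →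
      (∀ s t, W s t ≤ C) → (RankLeTwo W ∨ ∃ r s, OrderedMinors W r s) →
      (∫ s, ∫ t, W s t ∂μ ∂μ) ^ H.edgeFinset.card ≤ kernelDensity μ H W hW) ∧
    (∀ (V Ω : Type) [Fintype V] [DecidableEq V] [MeasurableSpace Ω]
      (H : SimpleGraph V) [DecidableRel H.Adj] (μ : Measure Ω) [IsProbabilityMeasure μ]
      (W : Ω → Ω → ℝ) (hW : ∀ s t, W s t = W t s) (C : ℝ),
      Measurable (Function.uncurry W) → (∀ s t, 0 ≤ W s t) → (∀ s t, W s t ≤ C) →
      ((∃ f g : Ω → ℝ, ∀ s t, W s t = f s * f t + g s * g t) ∨ ∃ r, OrderedMinors W r r) →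
      (∫ s, ∫ t, W s t ∂μ ∂μ) ^ H.edgeFinset.card ≤ kernelDensity μ H W hW) ∧
    (∀ (A B Ω₁ Ω₂ : Type) [Fintype A] [Fintype B] [MeasurableSpace Ω₁] [MeasurableSpace Ω₂]
      (μ : Measure Ω₁) (ν : Measure Ω₂) [IsProbabilityMeasure μ] [IsProbabilityMeasure ν]
      (E : Finset (A × B)) (W : Ω₁ → Ω₂ → ℝ) (C : ℝ),
      Measurable (Function.uncurry W) → (∀ s t, 0 ≤ W s t) → (∀ s t, W s t ≤ C) →
      (RankLeTwo W ∨ ∃ r s, OrderedMinors W r s) →
      (∫ s, ∫ t, W s t ∂ν ∂μ) ^ E.card ≤ bipDensity μ ν E W) ∧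
    (∀ (V U : Type) [Finite V] [Finite U] [Nonempty U] (H : SimpleGraph V) (G : SimpleGraph U),
      H.IsBipartite →
      (∃ r s : U → ℝ, ∀ x x' y y', r x ≤ r x' → s y ≤ s y' → G.Adj x y' → G.Adj x' y →
        G.Adj x y ∧ G.Adj x' y') →
      edgeDensity G ^ Nat.card H.edgeSet ≤ homDensity H G) := by
  refine ⟨?_, ?_, ?_, ?_⟩
  · intro V Ω _ _ _ H _ μ _ W hW C hH hmeas h0 hC hcase
    obtain ⟨r, s, hm⟩ : ∃ r s, OrderedMinors W r s := hcase.elim (fun h => h.ordered h0) id
    obtain ⟨o, ho, hor⟩ := exists_level H hH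
    rw [density_eq μ H W hW ho, ← card_orient H ho]
    exact kernel_ineq μ hmeas h0 hC hm _ (orient_ne H) (Or.inl hor)
  · intro V Ω _ _ _ H _ μ _ W hW C hmeas h0 hC hcase
    obtain ⟨r, hm⟩ : ∃ r, OrderedMinors W r r :=
      hcase.elim (fun ⟨f, g, h⟩ => psd_ordered h0 h) id
    obtain ⟨o, ho⟩ := exists_level_all H
    rw [density_eq μ H W hW ho, ← card_orient H ho]
    exact kernel_ineq μ hmeas h0 hC hm _ (orient_ne H) (Or.inr ⟨rfl, hW⟩)
  · intro A B Ω₁ Ω₂ _ _ _ _ μ ν _ _ E W C hmeas h0 hC hcase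
    classical
    obtain ⟨r, s, hm⟩ : ∃ r s, OrderedMinors W r s := hcase.elim (fun h => h.ordered h0) id
    exact bip_ineq μ ν hmeas h0 hC hm E
  · intro V U _ _ _ H G hH hord
    classical
    have := Fintype.ofFinite V
    have := Fintype.ofFinite U
    obtain ⟨r, s, hrs⟩ := hord
    obtain ⟨o, ho, hor⟩ := exists_level H hH
    set W : U → U → ℝ := fun x y => if G.Adj x y then 1 else 0 with hWdef
    have hW0 : ∀ x y, 0 ≤ W x y := fun x y => by simp only [hWdef]; split_ifs <;> norm_num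
    have hm : OrderedMinors W r s := by
      intro x x' y y' hx hy
      by_cases h1 : G.Adj x y'
      · by_cases h2 : G.Adj x' y
        · obtain ⟨h3, h4⟩ := hrs x x' y y' hx hy h1 h2
          simp [hWdef, h1, h2, h3, h4]
        · have : W x' y = 0 := by simp [hWdef, h2]
          rw [this, mul_zero]; exact mul_nonneg (hW0 _ _) (hW0 _ _)
      · have : W x y' = 0 := by simp [hWdef, h1]
        rw [this, zero_mul]; exact mul_nonneg (hW0 _ _) (hW0 _ _)
    set N := Fintype.card U with hN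
    have hNpos : 0 < N := Fintype.card_pos
    set z : Fin N ≃ U := (Fintype.equivFin U).symm with hz
    have hmain := sample_ineq hW0 hm (orient H o) (orient_ne H) (Or.inl hor) hNpos z
    rw [card_orient H ho] at hmain
    have h1 : ∑ i, ∑ j, W (z i) (z j) = 2 * (Nat.card G.edgeSet : ℝ) := by
      have h2 : ∑ i, ∑ j, W (z i) (z j) = ∑ x, ∑ y, W x y := by
        rw [← Equiv.sum_comp z (fun x => ∑ y, W x y)]
        exact Finset.sum_congr rfl fun i _ => Equiv.sum_comp z (fun y => W (z i) y)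
      have h3 : ∀ x, ∑ y, W x y = (G.degree x : ℝ) := by
        intro x
        simp only [hWdef]
        rw [Finset.sum_boole, ← SimpleGraph.card_neighborFinset_eq_degree,
          SimpleGraph.neighborFinset_eq_filter]
      rw [h2, Finset.sum_congr rfl fun x _ => h3 x, ← Nat.cast_sum,
        SimpleGraph.sum_degrees_eq_twice_card_edges, Nat.card_eq_fintype_card,
        SimpleGraph.edgeFinset_card]
      push_cast; ring
    have h2 : H.edgeFinset.card = Nat.card H.edgeSet := by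
      rw [Nat.card_eq_fintype_card, SimpleGraph.edgeFinset_card]
    have h3 := hom_sum H G ho z
    rw [h1, h2] at hmain
    simp only [hWdef] at hmain
    rw [h3] at hmain
    unfold edgeDensity homDensity
    rw [Nat.card_eq_fintype_card (α := U), Nat.card_eq_fintype_card (α := V)]
    exact hmain

end Vale.Agent.Results.P050.TotallyPositive
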